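import Vale.Agent.P236R.Hub
import Vale.Agent.P236LL.Desc

/-!
# P236: three differentials with target in stem 322 and degree 14
-/

open CategoryTheory MonoidalCategory Limits Pretriangulated MonObj

namespace Vale.Agent.P236LB

open Vale.Agent.P236SY GData Vale.Agent.P251 Vale.Agent.P251.T Vale.Agent.P251.S Vale.Agent.P251.H
  Vale.Agent.P251.M Vale.Agent.P251.F Vale.Agent.P251.I TD Vale.Agent.P236EL Vale.Agent.P236F
  Vale.Agent.P236R Vale.Agent.P236Z AddSubgroup Cx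
open Vale.Agent.P251.St (SHCat)

variable {T : SHCat} {t : Cob Laz 1} {C : Cx T}

variable (t) in
/-- The facts for the differential of level 0. -/
def Kap (H : AddSubgroup (Fin 1 → Cob Laz 14)) (x : Cob Laz 1) (c₂ : Cob Laz 2) : Prop :=
  ∃ y ∈ ZS 69 4, ∃ n ∈ ZS 63 3, ∃ g ∈ ZS 83 9,
    lc _ (show 1 + 8 = 9 from rfl) x (lb t 6 rfl (lb t 4 rfl y)) - lv 9 g ∈ BS 84 9 ∧
    lc _ (show 1 + 4 = 5 from rfl) t y - lc _ (show 2 + 3 = 5 from rfl) c₂ n ∈ BS 70 5 ∧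
    lc _ (show 1 + 7 = 8 from rfl) x (lb t 5 rfl (lb t 3 rfl n)) ∈ BS 78 8 ∧
    ∀ X ∈ ZS 70 9, ∀ Z ∈ ZS 64 8,
      lc _ (show 1 + 9 = 10 from rfl) t X + lc _ (show 2 + 8 = 10 from rfl) c₂ Z ∈ BS 71 10 →
      lc _ (show 1 + 12 = 13 from rfl) x (lb t 10 rfl (lb t 8 rfl Z)) -
        lb t 11 rfl (lb t 9 rfl (lb t 7 rfl (lv 7 (lb t 5 rfl (lb t 3 rfl n))))) ∈ BS 79 13 →
      lb t 12 rfl (lb t 10 rfl (lb t 8 rfl (lv 8 (lb t 6 rfl (lb t 4 rfl y))))) -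
        lc _ (show 1 + 13 = 14 from rfl) x (lb t 11 rfl (lb t 9 rfl X)) ∉ H

variable (t) in
/-- The facts for the differential of level 10. -/
def Phi (H : AddSubgroup (Fin 1 → Cob Laz 14)) (c c₄ : Cob Laz 2) : Prop :=
  ∃ a ∈ ZT t 58 3, ∃ g ∈ ZS 83 9, lv 3 a ∈ BT t 59 3 ∧ ![a 1, 0, 0] ∉ BY t 57 3 ∧
    lc _ (show 2 + 7 = 9 from rfl) c₄ (lc _ (show 2 + 5 = 7 from rfl) c
      (lb t 3 rfl fun _ => a 1)) - lv 9 g ∈ BS 84 9 ∧
    ∀ Y ∈ ZT t 59 8, lv 8 Y ∈ BT t 60 8 → ![Y 1, 0, 0] ∉ BY t 58 8 →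
      lc _ (show 2 + 12 = 14 from rfl) c₄ (lc _ (show 2 + 10 = 12 from rfl) c
        (lb t 8 rfl fun _ => Y 1)) ∈ H ∧
      lc (Fin 1) (show 2 + 12 = 14 from rfl) c₄ (lc _ (show 2 + 10 = 12 from rfl) c
        (lb t 8 rfl fun _ => Y 1)) ∉ BS 85 14

variable (t) in
/-- The facts about stem 303 of `Y`. -/
def P303 (x₁ x₂ x₅ : Cob Laz 1) : Prop :=
  ∃ g ∈ ZY t 58 4, ∃ m ∈ ZS 74 4,
    ZY t 65 5 ≤ zmultiples (lc _ (show 1 + 4 = 5 from rfl) x₂ g) ⊔ BY t 65 5 ∧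
    lc _ (show 1 + 4 = 5 from rfl) x₅ g ∈
      zmultiples ![lc _ (show 1 + 4 = 5 from rfl) x₁ m 0, 0, 0] ⊔ BY t 77 5

variable (t) in
/-- The classes `β ^ 4 K + j z` with `v_1 K = 0`. -/
def UU : AddSubgroup (Fin 1 → Cob Laz 14) where
  carrier := {F | ∃ K ∈ ZS 72 6, ∃ z ∈ ZY t 86 14, lv 6 K ∈ BS 73 6 ∧
    (F - lb4 t K - fun _ : Fin 1 => z 2) ∈ BS 84 14}
  zero_mem' := ⟨0, zero_mem _, 0, zero_mem _, by rw [map_zero]; exact zero_mem _, by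
    simp only [lb4, map_zero, sub_zero]
    exact (sub_self (0 : Fin 1 → Cob Laz 14)).symm ▸ zero_mem _⟩
  add_mem' := fun ⟨K, h1, z, h2, h3, h4⟩ ⟨K', k1, z', k2, k3, k4⟩ =>
    ⟨_, add_mem h1 k1, _, add_mem h2 k2, by rw [map_add]; exact add_mem h3 k3, by
      convert add_mem h4 k4 using 1
      simp only [lb4, map_add]
      rw [show (fun _ : Fin 1 => (z + z') 2) = (fun _ => z 2) + fun _ => z' 2 from rfl]
      abel⟩
  neg_mem' := fun ⟨K, h1, z, h2, h3, h4⟩ =>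
    ⟨_, neg_mem h1, _, neg_mem h2, by rw [map_neg]; exact neg_mem h3, by
      convert neg_mem h4 using 1
      simp only [lb4, map_neg]
      rw [show (fun _ : Fin 1 => (-z) 2) = -fun _ => z 2 from rfl]
      abel⟩

theorem bs_le_UU : BS 84 14 ≤ UU t := fun F hF =>
  ⟨0, zero_mem _, 0, zero_mem _, by rw [map_zero]; exact zero_mem _, by
    simp only [lb4, map_zero, sub_zero]
    exact (sub_zero F).symm ▸ hF⟩

theorem lb4_mem {K : Fin 1 → Cob Laz 6} (hK : K ∈ ZS 72 6) (h : lv 6 K ∈ BS 73 6) :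
    lb4 t K ∈ UU t :=
  ⟨K, hK, 0, zero_mem _, h, by
    rw [sub_self]
    exact (sub_self (0 : Fin 1 → Cob Laz 14)).symm ▸ zero_mem _⟩

theorem jy_mem {z : Fin 3 → Cob Laz 14} (hz : z ∈ ZY t 86 14) : (fun _ => z 2) ∈ UU t :=
  ⟨0, zero_mem _, z, hz, by rw [map_zero]; exact zero_mem _, by
    simp only [lb4, map_zero, sub_zero, sub_self]
    exact zero_mem _⟩

/-- The classes of level at least two in stem 326. -/
noncomputable def HH : AddSubgroup (Fin 1 → Cob Laz 14) :=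
  (ZS 85 14 ⊓ Fl p3 _ 14 (II 3 (ZMod 3) ^ 2)) ⊔ BS 85 14

variable (t) in
/-- Generators of stem 322. -/
def Gen : Prop := ∃ q₀ ∈ ZS 84 14, ∃ q₁ ∈ ZS 84 14, ∃ q₂ ∈ ZS 84 14, lv 14 q₁ ∈ HH ∧
  lv 14 q₂ ∈ BS 85 14 ∧ ZS 84 14 ≤ zmultiples q₀ ⊔ (zmultiples q₁ ⊔ (zmultiples q₂ ⊔ UU t))

variable (t) in
/-- The kernel of `v_1 β ^ 3` on stem 291 vanishes on the bottom cell of `Y`. -/
def K291 : Prop := ∀ X ∈ ZS 75 9,
  lb t 13 rfl (lb t 11 rfl (lv 11 (lb t 9 rfl X))) ∈ BS 85 15 → ![X 0, 0, 0] ∈ BY t 75 9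

variable (t) in
/-- The facts about the cohomology. -/
structure RF : Prop where
  gen : Gen t
  k291 : K291 t
  p303 : ∀ {x₁ c₁ x₂ c₂ x₅ c₅}, Grk 0 1 x₁ c₁ → Grk 0 2 x₂ c₂ → Grk 0 5 x₅ c₅ → P303 t x₁ x₂ x₅
  kap : ∀ {x c x₂ c₂}, Grk 1 1 x c → Grk 0 2 x₂ c₂ → Kap t HH x c₂
  phi : ∀ {x c x₄ c₄}, Grk 1 1 x c → Grk 0 4 x₄ c₄ → Phi t HH c c₄
  g58 : ∀ {x c}, Grk 1 1 x c →
    ZS 16 6 ≤ zmultiples (lb t 4 rfl (lb t 2 rfl (lv 2 fun _ => c))) ⊔ BS 16 6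
  v189 : VY t 49 7
  e189 : ∀ F ∈ ZS 48 3, ![F 0, 0, 0] ∈ BY t 48 3
  l142 : LY t 37 6
  n224 : ∀ {x c}, Grk 1 2 x c → ∃ G ∈ ZY t 37 6,
    lc _ (show 2 + 6 = 8 from rfl) c G ∉ BY t 58 8
  l225 : LY t 57 3
  vx : ∀ {x c}, Grk 0 1 x c → (lv 1 fun _ => x) ∈ BS 4 1
  c10 : ∀ {x c}, Grk 0 1 x c → (fun _ => bb t) ∈ zmultiples (fun _ => c) ⊔ BS 3 2
  vz : ∀ z ∈ ZY t 86 14, lv 14 z ∈ BY t 87 14
  i227 : ∀ {x c}, Grk 0 5 x c → InjL t x 59 78 9 10 rfl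

section gen

variable {J : Type} [Fintype J] {d : J → ℤ} {θ : J → J → Cob Laz 1} {a s s' r r' : ℕ}
  {ω w w' v v' : ℤ} {Z : T.C} {e : J → (ob C.Γ ⟶ C.Q 0 Z)} {F : J → Cob Laz s}
  {G : J → Cob Laz s'} {z : Cob Laz a}

/-- The product with a class of small stem. -/
theorem dr_low (ht : IsT1 3 t) (hθ : MC θ) (hz : (fun _ => z) ∈ ZS ω a)
    (hω : 2 * (ω + 1) + (a + 5 : ℕ) % 2 < 3 * (a + 5 : ℕ)) (h : C.Dr d θ 3 s s' w w' (mE e) F G)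
    (e₁ : a + s = r) (e₃ : a + s' = r') (hr : 1 ≤ r) (ev : ω + w = v) (ev' : ω + w' = v') :
    C.Dr d θ 3 r r' v v' (mE e) (lc J e₁ z F) ((-1 : ℤ) ^ a • lc J e₃ z G) := by
  obtain ⟨G', hG⟩ := (cmS (C := C)).exists_d5 hz (s' := a + 5) (w' := ω + 1) rfl rfl
  have h1 : C.DM 3 a (a + 5) ω (ω + 1) (fun _ => z) fun _ => 0 :=
    cmS.dr_right hG (sub_mem (zero_mem _) (vs_of_lt ht hω hG.cy'))
  have h2 := Dr.lc hθ h1 h e₁ (by have := h.es; omega) e₃ hr ev ev'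
  rwa [map_zero, AddMonoidHom.zero_apply, zero_add] at h2

theorem dr_v (ht : IsT1 3 t) (hθ : MC θ) (h : C.Dr d θ 3 s s' w w' (mE e) F G) (hr : 1 ≤ s)
    (ev : 1 + w = v) (ev' : 1 + w' = v') :
    C.Dr d θ 3 s s' v v' (mE e) (lv s F) (lv s' G) := by
  have h1 := dr_low ht hθ (zs_v1 ht) (by decide) h (zero_add s) (zero_add s') hr ev ev'
  rwa [pow_zero, one_smul] at h1

omit [Fintype J] in
theorem lc_b2 {k k₂ k₄ l l₂ : ℕ} (y : Fin 1 → Cob Laz k) (h₂ : 2 + k = k₂) (h₄ : 2 + k₂ = k₄)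
    (h : k₄ + s = r) (g : k + s = l) (g₂ : 2 + l = l₂) (g₄ : 2 + l₂ = r) (F : J → Cob Laz s) :
    lc J h (lb t k₂ h₄ (lb t k h₂ y) 0) F = lb t l₂ g₄ (lb t l g₂ (lc J g (y 0) F)) := by
  rw [← lc_lc h₂ (show k₂ + s = l₂ by omega), ← lc_lc h₄ h]
  rfl

omit [Fintype J] in
theorem lc_b3 {k k₂ k₄ k₆ l l₂ l₄ : ℕ} (y : Fin 1 → Cob Laz k) (h₂ : 2 + k = k₂)
    (h₄ : 2 + k₂ = k₄) (h₆ : 2 + k₄ = k₆) (h : k₆ + s = r) (g : k + s = l) (g₂ : 2 + l = l₂)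
    (g₄ : 2 + l₂ = l₄) (g₆ : 2 + l₄ = r) (F : J → Cob Laz s) :
    lc J h (lb t k₄ h₆ (lb t k₂ h₄ (lb t k h₂ y)) 0) F =
      lb t l₄ g₆ (lb t l₂ g₄ (lb t l g₂ (lc J g (y 0) F))) := by
  rw [← lc_b2 y h₂ h₄ (show k₄ + s = l₄ by omega), ← lc_lc h₆ h]
  rfl

theorem comm_lc {b : ℕ} {ξ : ℤ} {y : Cob Laz b} (hy : (fun _ => y) ∈ ZS ξ b)
    {F : Fin 1 → Cob Laz s} (hF : F ∈ ZS w s) (hz : (fun _ => z) ∈ ZS ω a) (g : b + s = s')
    (g' : a + s' = r') (e : a + s = r) (e' : b + r = r') (ev : ξ + ω + w = v) :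
    lc _ e' y (lc _ e z F) - (-1 : ℤ) ^ (b * a) • lc _ g' z (lc _ g y F) ∈ BS v r' := by
  have h1 := lc_of_BQ mc_zero (show a + b + s = r' by omega) (d' := fun _ : Fin 1 => 0) rfl
    (lc_comm (d := fun _ : Fin 1 => 0) rfl (add_comm b a) rfl hy hz) hF
  rwa [Pi.sub_apply, Pi.smul_apply, map_sub, map_zsmul, AddMonoidHom.sub_apply,
    AddMonoidHom.smul_apply, lc_apply, lc_apply, lc_lc _ _ e e', lc_lc _ _ g g', ev] at h1

/-- Annihilators are submodules. -/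
theorem mul_lc {b : ℕ} {ξ : ℤ} {y : Cob Laz b} (hy : (fun _ => y) ∈ ZS ξ b) {F : Fin 1 → Cob Laz s}
    (hF : F ∈ ZS w s) (hz : (fun _ => z) ∈ ZS ω a) {h₁ : b + s = s'} (h : lc _ h₁ y F ∈ BS w' s')
    (e : a + s = r) (e' : b + r = r') (ew : ξ + w = w') (ev : ω + w' = v) :
    lc _ e' y (lc _ e z F) ∈ BS v r' := by
  simpa using add_mem (comm_lc hy hF hz h₁ (by omega) e e' (by omega))
    (zsmul_mem (lcB mc_zero (show a + s' = r' by omega) hz ev h) ((-1) ^ (b * a)))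

/-- Products commute with `β ^ 2`. -/
theorem comm_bb (ht : IsT1 3 t) {F : Fin 1 → Cob Laz s} (hF : F ∈ ZS w s)
    (hz : (fun _ => z) ∈ ZS ω a) (s₂ s₄ r₂ r₄ : ℕ) (g : a + s = r) (g₂ : 2 + r = r₂)
    (g₄ : 2 + r₂ = r₄) (e₂ : 2 + s = s₂) (e₄ : 2 + s₂ = s₄) (e : a + s₄ = r₄)
    (ev : ω + 6 + w = v) : lc _ e z (lb t s₂ e₄ (lb t s e₂ F)) -
      lb t r₂ g₄ (lb t r g₂ (lc _ g z F)) ∈ BS v r₄ := by
  have h1 := comm_lc hz (lbZ ht mc_zero e₂ rfl hF) (zs_bb ht) (show a + s₂ = r₂ by omega) g₄ e₄ e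
    (v := v) (by omega)
  have h2 := lbB ht mc_zero g₄ (w' := v) (by omega) (comm_lc hz hF (zs_bb ht) g g₂ e₂
    (show a + s₂ = r₂ by omega) rfl)
  rw [Even.neg_one_pow (Even.mul_left (by decide) _), one_smul] at h1 h2
  rw [map_sub] at h2
  simpa using add_mem h1 h2

/-- The Bockstein of a class which is killed by `v_1`. -/
theorem t_of_v (ht : IsT1 3 t) {F : Fin 1 → Cob Laz s} {F' : Fin 1 → Cob Laz (s + 1)}
    (h : lv s F ∈ BS w s) (hd : DD 0 s F = 3 • F') (e : 1 + s = s + 1) :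
    lc _ e t F + lv (s + 1) F' ∈ BS w (s + 1) := by
  have h1 := DD_lc_three mc_zero (zero_add s) (d_v1 ht) hd
  obtain ⟨b, hb, u, hu, h2⟩ := mem_BQ.1 h
  have h3 : DD 0 s b = 0 := by
    rcases s with _ | s
    · rw [mem_bot.1 hb, map_zero]
    · obtain ⟨y, -, rfl⟩ := hb
      exact DD_DD mc_zero y
  rw [pow_zero, one_smul, ← h2, map_add, h3, zero_add, map_nsmul] at h1
  exact mem_sup_left ⟨u, hu, funext fun i => Det.three_cancel (by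
    simpa only [Pi.smul_apply, nsmul_eq_mul, Nat.cast_ofNat] using congrFun h1 i)⟩

/-- The class on the top cell of `C α` is killed by `t`. -/
theorem t_top (ht : IsT1 3 t) {a : Fin 2 → Cob Laz s} (ha : a ∈ ZT t w s)
    (h1 : (fun _ => a 1) ∈ ZS v s) (e : 1 + v = w) (e' : 1 + s = s + 1) :
    lc (Fin 1) e' t (fun _ => a 1) ∈ BS w (s + 1) := by
  obtain ⟨h2, b, hb, h3⟩ := mem_ZC.1 ha
  have h4 := congrFun h3 0
  have h5 := lc_comm (d := fun _ : Fin 1 => 0) rfl e' rfl (zs_t ht) h1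
  have h6 : ((-1 : ℤ) ^ (1 * s) • lc (Fin 1) rfl (a 1) fun _ => t) ∈ BS w (s + 1) := by
    have h7 := (zsmul_mem (lcZ mc_zero rfl h1 (w' := w) (by omega) (zs_t ht)) ((-1) ^ (1 * s))).1
    refine mem_BQ_succ.2 ⟨fun _ => -a 0, fun _ => (h2 0).neg, (fun _ => b 0) +
      (-1 : ℤ) ^ (1 * s) • lc (Fin 1) rfl (a 1) fun _ => t,
      AddSubgroup.add_mem _ (fun _ => hb 0) h7, funext fun i => ?_⟩
    rw [DD_apply, Fin.sum_univ_two] at h4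
    rw [Pi.add_apply, DD_zero, map_neg, eq_sub_of_add_eq h4.symm]
    simp [θA, Cob.cup, lc_apply, P236EL.cupE_rfl, pow_succ, map_ofNat]
    ring
  rw [e] at h5
  simpa using add_mem h5 h6

theorem unit_sq (u : ℤˣ) {A : Type*} [AddCommGroup A] (x : A) : (u : ℤ) • (u : ℤ) • x = x := by
  rw [smul_smul, ← Units.val_mul, Int.units_mul_self, Units.val_one, one_smul]

theorem cut {A : Type*} [AddCommGroup A] {S : AddSubgroup A} {q F G : A} (h3 : (3 : ℤ) • q ∈ S)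
    (hG : G ∈ zmultiples q ⊔ S) (h : G ∉ S) (hF : F ∈ zmultiples q ⊔ S) :
    ∃ k : ℤ, F - k • G ∈ S := by
  obtain ⟨u, hu⟩ := exists_unit hG h h3
  obtain ⟨_, ⟨k, rfl⟩, b, hb, rfl⟩ := mem_sup.1 hF
  refine ⟨k * u, ?_⟩
  convert sub_mem hb (zsmul_mem hu (k * u)) using 1
  rw [smul_sub, mul_smul k u (_ • q), unit_sq]
  abel

theorem drop {A : Type*} [AddCommGroup A] {S N : AddSubgroup A} {q F G : A} (hS : S ≤ N)
    (h3 : (3 : ℤ) • q ∈ S) (hG : G ∈ zmultiples q ⊔ S) (h : G ∉ N) (hF : F ∈ zmultiples q ⊔ S)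
    (h' : F ∈ N) : F ∈ S := by_contra fun h1 => (cut h3 hF h1 hG).elim fun k h2 =>
  h (by simpa using add_mem (hS h2) (zsmul_mem h' k))

end gen

variable (P : C.CY t) (ht : IsT1 3 t) (hA : P236K.EA) (hX : FX t)
  {H : AddSubgroup (Fin 1 → Cob Laz 14)} {x : Cob Laz 1} {c : Cob Laz 2} (hx : Grk 1 1 x c)
include P ht hA hX hx

/-- The differential of level 0. -/
theorem kappa {x₂ : Cob Laz 1} {c₂ : Cob Laz 2} (h₂ : Grk 0 2 x₂ c₂) (hB : BS 85 14 ≤ H)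
    (h : Kap t H x c₂) : ∃ g G, C.DM 3 9 14 83 84 g G ∧ lv 14 G ∉ H := by
  obtain ⟨y, hy, n, hn, g, hg, k1, k2, k3, k4⟩ := h
  obtain ⟨X, hX'⟩ := (cmS (C := C)).exists_d5 hy (s' := 9) (w' := 70) rfl rfl
  obtain ⟨Z, hZ⟩ := (cmS (C := C)).exists_d5 hn (s' := 8) (w' := 64) rfl rfl
  obtain ⟨G, hG⟩ := (cmS (C := C)).exists_d5 hg (s' := 14) (w' := 84) rfl rfl
  obtain ⟨u, hu⟩ := CY.d5_x33 (C := C) ht hA hX hx
  rw [zs_eta (_ • _)] at hu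
  have h1 := cmS.d5_uniq (dr_low ht mc_zero (zs_t ht) (by decide) hX' (r := 5) (r' := 10) rfl rfl
    (by decide) (v := 70) (v' := 71) rfl rfl) (dr_low ht mc_zero (h₂.zc (ω := 7) rfl) (by decide) hZ
      rfl rfl (by decide) rfl rfl) k2
  have h2 := cmS.d5_by (Dr.lc mc_zero hu (P.dr_lb ht mc_zero (P.dr_lb ht mc_zero hZ (r := 5)
    (r' := 10) (v := 66) (v' := 67) rfl rfl rfl rfl) (r := 7) (r' := 12) (v := 69) (v' := 70)
      rfl rfl rfl rfl) (r := 8) (r' := 13) (v := 78) (v' := 79) rfl rfl rfl (by decide) rfl rfl) k3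
  have h3 := cmS.d5_uniq (Dr.lc mc_zero hu (P.dr_lb ht mc_zero (P.dr_lb ht mc_zero hX' (r := 6)
    (r' := 11) (v := 72) (v' := 73) rfl rfl rfl rfl) (r := 8) (r' := 13) (v := 75) (v' := 76)
      rfl rfl rfl rfl) (r := 9) (r' := 14) (v := 84) (v' := 85) rfl rfl rfl (by decide) rfl rfl)
    (dr_v ht mc_zero hG (by decide) rfl rfl) k1
  rw [Pi.smul_apply, map_zsmul, AddMonoidHom.smul_apply, b3v] at h2 h3
  rw [lc_b3 (l := 7) (l₂ := 9) (l₄ := 11) _ _ _ _ _ rfl rfl rfl rfl] at h2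
  rw [lc_b3 (l := 8) (l₂ := 10) (l₄ := 12) _ _ _ _ _ rfl rfl rfl rfl] at h3
  refine ⟨g, G, hG, fun h4 => k4 _ (zsmul_mem hX'.cy' u) _ (zsmul_mem hZ.cy' u) ?_ ?_ ?_⟩
  · convert zsmul_mem h1 (-u) using 1
    simp only [map_zsmul]
    module
  · have h5 := zsmul_mem h2 (-u)
    rw [smul_add, neg_smul, unit_sq] at h5
    convert h5 using 1
    simp only [map_zsmul]
    module
  · have h5 := zsmul_mem (add_mem (hB h3) h4) u
    rw [sub_add_cancel, smul_add, unit_sq] at h5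
    convert h5 using 1
    simp only [map_zsmul]
    module

omit P hA hX in
/-- The differential on `β_4`. -/
theorem d5_b4 {x₄ : Cob Laz 1} {c₄ : Cob Laz 2} (h₄ : Grk 0 4 x₄ c₄)
    (h : ZS 16 6 ≤ zmultiples (lb t 4 rfl (lb t 2 rfl (lv 2 fun _ => c))) ⊔ BS 16 6) :
    ∃ k : ℤ, C.DM 3 2 7 15 16 (fun _ => c₄)
      (k • lb t 5 rfl (lb t 3 rfl (lc _ (show 1 + 2 = 3 from rfl) t fun _ => c))) := by
  obtain ⟨G, hG⟩ := (cmS (C := C)).exists_d5 (h₄.zx (ω := 15) rfl) (s' := 6) (w' := 16) rfl rfl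
  obtain ⟨_, ⟨k, rfl⟩, b, hb, e⟩ := mem_sup.1 (h hG.cy')
  have h1 := cmS.dr_right hG (G' := k • lb t 4 rfl (lb t 2 rfl (lv 2 fun _ => c)))
    (by rw [← e, sub_add_cancel_left]; exact neg_mem hb)
  obtain ⟨u, hu⟩ := (chart_Γ (C := C) (J := Fin 1)).dr_δ 3 1 6 15 16
  refine ⟨u * k, ?_⟩
  rw [mul_smul]
  refine hu h1 (h₄.zc rfl).1 (zsmul_mem (lbZ ht mc_zero _ (w := 13) rfl (lbZ ht mc_zero _ (w := 10)
    rfl (lcZ mc_zero _ (zs_t ht) (w := 9) rfl (hx.zc rfl)))) _).1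
    (funext fun _ => by rw [DD_zero, h₄.d]; rfl) ?_
  rw [map_zsmul, DD_lb ht mc_zero, DD_lb ht mc_zero, DD_lc mc_zero, d_v1 ht,
    show DD 0 2 (fun _ : Fin 1 => c) = 0 from funext fun _ => by rw [DD_zero, hx.dc]; rfl, map_zero,
    smul_zero, add_zero, map_nsmul, AddMonoidHom.nsmul_apply, map_nsmul, map_nsmul, smul_comm]

variable (hR : FR t) (hH : VH t) (h : RF t)
include hR hH h

omit hX hx in
/-- The generator of stem 225 of `Y` supports a differential. -/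
theorem seed {F : Fin 3 → Cob Laz 3} {G : Fin 3 → Cob Laz 8} (h1 : P.DZ 3 3 8 57 58 F G)
    (h2 : F ∉ BY t 57 3) : G ∉ BY t 58 8 := fun h3 => by
  obtain ⟨z, hz, hb⟩ := exists_th ht hR.ft
  obtain ⟨θ, hθ⟩ := P.exists_theta ht hR.van hz.1 hb
  obtain ⟨x, c, hx⟩ := exists_grk 1 2
  obtain ⟨G', h4, h5⟩ := h.n224 hx
  have h0 := h.e189 _ (zs_cupE (show 1 + 2 = 3 from rfl) hz.1 (w' := 48) rfl
    (hx.zc (ω := 21) rfl))
  have e1 : ∀ {q : ℕ} (z : Cob Laz q), (Pi.single 0 z : Fin 3 → Cob Laz q) = ![z, 0, 0] :=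
    fun z => funext fun c => by fin_cases c <;> rfl
  obtain ⟨F', h6⟩ := P.seed_c ht hA hR hH h.l142 hz hθ hx h.v189
    (by rw [lc_single, e1]; exact h0) h4
  obtain ⟨_, ⟨k, rfl⟩, b, hb, e⟩ := mem_sup.1 (h.l225 F h1.cy h2 h6.cy)
  have h7 := P.chY.cm.d5_uniq h6 (h1.zsmul k) (by rwa [← e, add_sub_cancel_left])
  have h8 := add_mem h7 (zsmul_mem h3 k)
  rw [sub_add_cancel] at h8
  exact h5 h8

/-- The differential of level 10. -/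
theorem phi : ∃ g G, C.DM 3 9 14 83 84 g G ∧ lv 14 G ∈ HH ∧ lv 14 G ∉ BS 85 14 := by
  obtain ⟨x₄, c₄, h₄⟩ := exists_grk 0 4
  obtain ⟨a, ha, g, hg, k1, k2, k3, k4⟩ := h.phi hx h₄
  obtain ⟨Y, hY⟩ := P.chA.cm.exists_d5 ha (s' := 8) (w' := 59) rfl rfl
  obtain ⟨G, hG⟩ := (cmS (C := C)).exists_d5 hg (s' := 14) (w' := 84) rfl rfl
  obtain ⟨u, hu⟩ := CY.d5_c33 (C := C) ht hA hX hx
  obtain ⟨k, hk⟩ := d5_b4 (C := C) ht hx h₄ (h.g58 hx)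
  rw [zs_eta (_ • _)] at hu hk
  have h1 := P.dr_jA hY (v := 57) (v' := 58) rfl rfl
  obtain ⟨h2, h3⟩ := k4 Y hY.cy' (P.chA.cm.d5_by (dr_v ht (mc_A ht) hY (by decide) rfl rfl) k1)
    (seed P ht hA hR hH h (P.dr_e0 h1) k2)
  have h4 := P.dr_lb ht mc_zero h1 (r := 5) (r' := 10) (v := 60) (v' := 61) rfl rfl rfl rfl
  have h5 := Dr.lc mc_zero hu h4 (r := 7) (r' := 12) (v := 69) (v' := 70) rfl rfl rfl (by decide)
    rfl rfl
  have h6 := cmS.d5_uniq (Dr.lc mc_zero hk h5 (r := 9) (r' := 14) (v := 84) (v' := 85) rfl rfl rfl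
    (by decide) rfl rfl) (dr_v ht mc_zero hG (by decide) rfl rfl) k3
  have h7 := mul_lc (zs_t ht) h1.cy (zs_bb ht) (t_top ht ha h1.cy rfl rfl) (r := 5) (r' := 6) (v := 61)
    rfl rfl rfl rfl
  have zc := hx.zc (ω := 9) rfl
  have h8 := zsmul_mem (lcB mc_zero (show 2 + 12 = 14 from rfl) (h₄.zc (ω := 15) rfl) (w' := 85) rfl
    (lbB ht mc_zero (show 2 + 10 = 12 from rfl) (w := 67) rfl (lbB ht mc_zero
      (show 2 + 8 = 10 from rfl) (w := 64) rfl (lbB ht mc_zero (show 2 + 6 = 8 from rfl) rfl h7)))) u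
  have h9 := zsmul_mem (lbB ht mc_zero (show 2 + 12 = 14 from rfl) (w' := 85) rfl (lbB ht mc_zero
    (show 2 + 10 = 12 from rfl) (w' := 82) rfl (mul_lc (zs_t ht) h4.cy (zs_cupE (show 2 + 2 = 4 from rfl) zc
      (w' := 18) rfl zc) h7 (r := 9) (r' := 10) (v := 79) rfl rfl rfl rfl))) k
  have h10 : lc (Fin 1) (show 2 + 12 = 14 from rfl) c₄ (lc _ (show 2 + 10 = 12 from rfl) c
      (lb t 8 rfl fun _ => Y 1)) - lv 14 G ∈ BS 85 14 := by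
    convert sub_mem (sub_mem h6 h8) h9 using 1
    rw [Pi.smul_apply, Pi.smul_apply, map_zsmul, map_zsmul, AddMonoidHom.smul_apply,
      AddMonoidHom.smul_apply, b3, lc_b3 (l := 6) (l₂ := 8) (l₄ := 10) _ _ _ _ _ rfl rfl rfl rfl,
      lc_b2 (l := 10) (l₂ := 12) _ _ _ _ rfl rfl rfl, lc_apply,
      lc_lc _ _ (show 2 + 7 = 9 from rfl) (show 1 + 9 = 10 from rfl),
      lc_lc _ _ (show 2 + 5 = 7 from rfl) (show 2 + 7 = 9 from rfl)]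
    simp only [map_add, map_zsmul, neg_one_sq, one_smul]
    abel
  exact ⟨g, G, hG, by simpa using sub_mem h2 (mem_sup_right h10), fun h11 => h3 (by
    simpa using add_mem h10 h11)⟩

omit hA hX hx hR hH in
theorem lv_UU {F : Fin 1 → Cob Laz 14} (hF : F ∈ UU t) : lv 14 F ∈ BS 85 14 := by
  obtain ⟨K, hK, z, hz, h1, h2⟩ := hF
  have h3 := lcB mc_zero (zero_add 14) (zs_v1 ht) (w' := 85) rfl h2
  have h4 := comm_bb ht hK (zs_v1 ht) 8 10 8 10 (zero_add 6) rfl rfl rfl rfl (zero_add 10) (v := 79) rfl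
  have h5 := comm_bb ht (lbZ ht mc_zero (show 2 + 8 = 10 from rfl) (w' := 78) rfl
    (lbZ ht mc_zero (show 2 + 6 = 8 from rfl) (w' := 75) rfl hK)) (zs_v1 ht) 12 14 12 14
    (zero_add 10) rfl rfl rfl rfl (zero_add 14) (v := 85) rfl
  have h6 := lbB ht mc_zero (show 2 + 12 = 14 from rfl) (w' := 85) rfl (lbB ht mc_zero
    (show 2 + 10 = 12 from rfl) (w' := 82) rfl (add_mem h4 (lbB ht mc_zero
      (show 2 + 8 = 10 from rfl) (w := 76) rfl (lbB ht mc_zero (show 2 + 6 = 8 from rfl) rfl h1))))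
  rw [sub_add_cancel] at h6
  rw [map_sub, map_sub] at h3
  have h7 := add_mem (add_mem h3 (P.by_jy (h.vz z hz) (v := 85) rfl)) (add_mem h5 h6)
  rwa [sub_add_cancel, show (fun _ : Fin 1 => lv 14 z 2) = lv 14 fun _ => z 2 from rfl,
    sub_add_cancel, sub_add_cancel] at h7

omit hA hX hx hR in
theorem not_UU {x₁ : Cob Laz 1} {c₁ : Cob Laz 2} (h₁ : Grk 0 1 x₁ c₁) {X : Fin 1 → Cob Laz 9}
    (hX : X ∈ ZS 75 9) (hU : lb t 12 rfl (lb t 10 rfl (lc _ (show 1 + 9 = 10 from rfl) x₁ X)) ∈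
      UU t) : ![X 0, 0, 0] ∈ BY t 75 9 := by
  obtain ⟨K, hK, z, hz, h1, h2⟩ := hU
  obtain ⟨-, K', hK', hd⟩ := cy_iff.1 hK
  have zK := (chart_Γ (C := C) (J := Fin 1)).cy_bock hK' hd
  obtain ⟨_, ⟨k, rfl⟩, b, hb, e⟩ := mem_sup.1 (h.c10 h₁)
  obtain ⟨z', hz'⟩ := P.chY.cm.exists_d5 hz (s' := 19) (w' := 87) rfl rfl
  have zv := zs_v1 ht
  have h3 := lcB mc_zero (show 1 + 14 = 15 from rfl) (zs_t ht) (w' := 85) rfl h2
  have h4 := t_top ht (P.dr_qq hz' (v := 85) (v' := 86) rfl rfl).cy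
    (P.dr_jy hz' (v := 84) (v' := 85) rfl rfl).cy rfl rfl
  have zA := sub_mem (lcZ mc_zero (show 1 + 9 = 10 from rfl) (h₁.zx (ω := 3) rfl) (w' := 78) rfl hX)
    (lbZ ht mc_zero (show 2 + 8 = 10 from rfl) rfl (lbZ ht mc_zero (show 2 + 6 = 8 from rfl)
      (w' := 75) rfl hK))
  have h5 := comm_bb ht zA (zs_t ht) 12 14 13 15 (show 1 + 10 = 11 from rfl) rfl rfl rfl rfl
    (show 1 + 14 = 15 from rfl) (v := 85) rfl
  have h6 := lc_of_BQ mc_zero (show 2 + 9 = 11 from rfl) (d' := fun _ : Fin 1 => 0) rfl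
    (t_of_v ht (h.vx h₁) (F' := fun _ => c₁) (funext fun _ => by rw [DD_zero, h₁.d]; rfl) rfl) hX
  have h7 := lcB mc_zero (zero_add 11) zv (w' := 79) rfl
    (lc_of_BQ mc_zero (show 2 + 9 = 11 from rfl) (d' := fun _ : Fin 1 => 0) rfl hb hX)
  have h8 := comm_bb ht hK (zs_t ht) 8 10 9 11 (show 1 + 6 = 7 from rfl) rfl rfl rfl rfl
    (show 1 + 10 = 11 from rfl) (v := 79) rfl
  have h9 := lbB ht mc_zero (show 2 + 9 = 11 from rfl) (w' := 79) rfl (lbB ht mc_zero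
    (show 2 + 7 = 9 from rfl) (w' := 76) rfl (t_of_v ht h1 hd rfl))
  have h10 := comm_bb ht (s := 7) zK zv 9 11 9 11 (zero_add 7) rfl rfl rfl rfl (zero_add 11)
    (v := 79) rfl
  have h11 : bb t = k • c₁ + b default := (congrFun e default).symm
  rw [Pi.add_apply, map_add, AddMonoidHom.add_apply, lc_apply, lc_apply,
    lc_lc _ _ (show 1 + 9 = 10 from rfl) (show 1 + 10 = 11 from rfl),
    lc_lc _ _ (show 2 + 9 = 11 from rfl) (zero_add 11)] at h6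
  have h12 : lv 11 (lb t 9 rfl (X - k • lb t 7 rfl K')) + k • lc _ (show 1 + 10 = 11 from rfl) t
      (lc _ (show 1 + 9 = 10 from rfl) x₁ X - lb t 8 rfl (lb t 6 rfl K)) ∈ BS 79 11 := by
    convert add_mem h7 (zsmul_mem (sub_mem (sub_mem (sub_mem h6 h8) h9) h10) k) using 1
    rw [map_sub, show lb t 9 (show 2 + 9 = 11 from rfl) X = lc _ (show 2 + 9 = 11 from rfl)
      (k • c₁ + b default) X from h11 ▸ rfl]
    simp only [map_add, map_sub, map_zsmul, AddMonoidHom.add_apply, AddMonoidHom.smul_apply]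
    module
  have h13 := h.k291 _ (sub_mem hX (zsmul_mem (lbZ ht mc_zero (show 2 + 7 = 9 from rfl) rfl zK) k))
    (by
      convert sub_mem (lbB ht mc_zero (show 2 + 13 = 15 from rfl) (w' := 85) rfl (lbB ht mc_zero
        (show 2 + 11 = 13 from rfl) (w' := 82) rfl h12))
        (zsmul_mem (sub_mem (add_mem h3 h4) h5) k) using 1
      rw [show (fun _ : Fin 1 => ![z 1, z 2] 1) = fun _ => z 2 from rfl]
      simp only [lb4, map_add, map_sub, map_zsmul]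
      module)
  obtain ⟨K'', hd'⟩ := (cmS (C := C)).exists_d5 zK (s' := 12) (w' := 73) rfl rfl
  convert add_mem h13 (zsmul_mem (P.lc_kill ht (zs_bb ht) (hH _ _ (by decide)) (hH _ _ (by decide))
    (hH _ _ (by decide)) (P.dr_e0 hd').cy (show 2 + 7 = 9 from rfl) (v := 75) rfl) k) using 1
  ext c
  fin_cases c <;> simp [lc_apply, ← P236EL.cupH_apply]

omit hX hx in
/-- The differential in the kernel of `v_1`. -/
theorem psi (hF : HF t) : ∃ g G, C.DM 3 9 14 83 84 g G ∧ lv 14 G ∈ BS 85 14 ∧ G ∉ UU t := by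
  obtain ⟨x₁, c₁, h₁⟩ := exists_grk 0 1
  obtain ⟨x₂, c₂, h₂⟩ := exists_grk 0 2
  obtain ⟨x₅, c₅, h₅⟩ := exists_grk 0 5
  obtain ⟨g, hg, m, hm, k1, k2⟩ := h.p303 h₁ h₂ h₅
  obtain ⟨X, hX⟩ := (cmS (C := C)).exists_d5 hm (s' := 9) (w' := 75) rfl rfl
  have z := h₁.zx (ω := 3) rfl
  have h1 := (dr_low ht mc_zero z (by decide) hX (r := 5) (r' := 10) rfl rfl (by decide) (v := 77)
    (v' := 78) rfl rfl).neg
  rw [pow_one, neg_smul, one_smul, neg_neg] at h1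
  refine ⟨_, _, P.dr_lb ht mc_zero (P.dr_lb ht mc_zero h1 (r := 7) (r' := 12) (v := 80) (v' := 81)
    rfl rfl rfl rfl) rfl rfl rfl rfl, ?_, fun h2 => P.hub ht hA hR hH hF ?_⟩
  · have h2 := lc_of_BQ mc_zero (show 1 + 9 = 10 from rfl) (d' := fun _ : Fin 1 => 0) rfl
      (h.vx h₁) hX.cy'
    rw [lc_apply, lc_lc _ _ (show 1 + 9 = 10 from rfl) (zero_add 10)] at h2
    exact mul_lc (zs_v1 ht) (lbZ ht mc_zero _ rfl h1.cy') (zs_bb ht) (mul_lc (zs_v1 ht) h1.cy'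
      (zs_bb ht) h2 (r := 12) (r' := 12) (v := 82) rfl rfl rfl rfl) rfl rfl rfl rfl
  · have h3 := P.ky_lc ht hH z (by decide) (P.chY.cm.k5_of (s := 4) (s' := 9) (w := 74) (w' := 75)
      (es := rfl) (ew := rfl) (P.dr_e0 hX) (not_UU P ht hH h h₁ hX.cy' h2))
      (show 1 + 4 = 5 from rfl) (by decide) (v := 77) (r' := 10) (v' := 78) (er := rfl) (ev := rfl)
      rfl
    rw [show lc _ (show 1 + 4 = 5 from rfl) x₁ ![m 0, 0, 0] =
      ![lc _ (show 1 + 4 = 5 from rfl) x₁ m 0, 0, 0] from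
        funext fun c => by fin_cases c <;> simp [lc_apply, ← P236EL.cupH_apply]] at h3
    exact k1.trans (P.chY.cm.zm_k5 (P.ky_lc ht hH (h₂.zx (ω := 7) rfl) (by decide)
      (P.ky_of_lc ht hH (h₅.zx (ω := 19) rfl) (by decide) hg _ (by decide) rfl (er := rfl)
        (ev := rfl) (P.chY.cm.zm_k5 h3 k2) (h.i227 h₅) (es := rfl) (ew := rfl)) _ (by decide) rfl))

omit hx in
/-- **The hypothesis of the descent.** -/
theorem r3 (hF : HF t) : R3 t C := fun F hF' => by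
  obtain ⟨x, c, hx⟩ := exists_grk 1 1
  obtain ⟨x₂, c₂, h₂⟩ := exists_grk 0 2
  obtain ⟨g₁, G₁, h1, h2⟩ := kappa (H := HH) P ht hA hX hx h₂ le_sup_right (h.kap hx h₂)
  obtain ⟨g₂, G₂, h3, h4, h5⟩ := phi P ht hA hX hx hR hH h
  obtain ⟨g₃, G₃, h6, h7, h8⟩ := psi P ht hA hR hH h hF
  obtain ⟨q₀, z₀, q₁, z₁, q₂, z₂, k1, k2, k3⟩ := h.gen
  have l2 : zmultiples q₂ ⊔ UU t ≤ (BS 85 14).comap (lv 14) :=
    _root_.sup_le (zmultiples_le_of_mem k2) fun _ => lv_UU P ht h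
  have l1 : zmultiples q₁ ⊔ (zmultiples q₂ ⊔ UU t) ≤ HH.comap (lv 14) :=
    _root_.sup_le (zmultiples_le_of_mem k1) (l2.trans (comap_mono le_sup_right))
  have t2 := bs_le_UU (t := t) (three_mem z₂.1)
  have t1 : (3 : ℤ) • q₁ ∈ zmultiples q₂ ⊔ UU t := mem_sup_right (bs_le_UU (three_mem z₁.1))
  have t0 : (3 : ℤ) • q₀ ∈ zmultiples q₁ ⊔ (zmultiples q₂ ⊔ UU t) :=
    mem_sup_right (mem_sup_right (bs_le_UU (three_mem z₀.1)))
  have m2 := drop l1 t0 (k3 h1.cy') h2 (k3 h3.cy') h4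
  obtain ⟨a, ha⟩ := cut t0 (k3 h1.cy') (fun h => h2 (l1 h)) (k3 hF')
  obtain ⟨b, hb⟩ := cut t1 m2 (fun h => h5 (l2 h)) ha
  obtain ⟨d, K, hK, z, hz, h9, h10⟩ := cut t2 (drop l2 t1 m2 h5
    (drop l1 t0 (k3 h1.cy') h2 (k3 h6.cy') (mem_sup_right h7)) h7) h8 hb
  exact ⟨_, _, K, hK, z, hz, ((h1.zsmul a).add (h3.zsmul b)).add (h6.zsmul d), h9, by
    rwa [← sub_sub, ← sub_sub]⟩

end Vale.Agent.P236LB
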