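import Vale.Agent.P236LB.KapC

/-!
# P236LB / KapD : checks for the stem 275 of `C α` and the stem 304 of the Moore spectrum
-/

namespace Vale.Agent.P236LB

open Vale.Agent.P236EL Vale.Agent.P236KE Vale.Agent.P236K3 Vale.Agent.P236F Vale.Agent.P236JX
  Vale.Agent.P236JT Vale.Agent.P236JG

theorem c275 : WJ.lfM (eA eJ) 5 70 [(0, 0)] [(3, 3)]
    (fun m => ((o249 m).cb0 eJ 90 3 0).ciA eJ 5) k249 [] = true := by
  decide +kernel

theorem h275 : (eA eJ).chT 5 70 0 [(6, 3), (9, 6), (12, 9), (14, 11), (17, 14), (20, 17),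
    (23, 20), (26, 23), (28, 25), (31, 28), (33, 30), (36, 33), (39, 36), (42, 39), (44, 41),
    (46, 43), (48, 45), (51, 48), (53, 50), (55, 52), (58, 55), (60, 57), (63, 60), (66, 63)] 3 =
    true := by
  decide +kernel

theorem h304 : eJ.chT 8 78 0 [(6, 3), (9, 6), (12, 9), (14, 11), (16, 13), (18, 15), (21, 18),
    (23, 20), (25, 22), (28, 25), (30, 27), (32, 29), (34, 31), (37, 34), (39, 36), (41, 38),
    (43, 40), (46, 43), (48, 45), (50, 47), (52, 49), (55, 52), (57, 54), (59, 56), (62, 59),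
    (64, 61), (67, 64)] 3 = true := by
  decide +kernel

end Vale.Agent.P236LB
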