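import Vale.Agent.P236LB.R
import Vale.Agent.P236LB.KapD
import Vale.Agent.P236JG.Base
import Vale.Agent.P236JX.Div
import Vale.Agent.P236TD.KapU

/-!
# P236LB / Kap : classes of stems 249 and 272 with three relations
-/

noncomputable section

namespace Vale.Agent.P236LB

open Vale.Agent.P251.F Vale.Agent.P251.I Vale.Agent.P236SY Vale.Agent.P236EL Vale.Agent.P236R
open Vale.Agent.P236KE Vale.Agent.P236K3 Vale.Agent.P236F AddSubgroup Vale.Agent.P236KE.S90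
open Vale.Agent.P236JG Vale.Agent.P236JT Vale.Agent.P236JX Vale.Agent.P236J3

/-- Cocycles which are multiples of the cube of `v_1`, by a chain with long steps. -/
theorem chV [Fact (Nat.Prime 3)] {G : ℕ → Type} [∀ q, Fintype (G q)] [DecidableEq (G 0)]
    {R : Rs 3 K G} {θ : G 0 → G 0 → Cob Laz 1} {E : JD} {ix : ∀ q, G (q + 1) → ℕ}
    {Tm s3 s4 s T k m : ℕ} {l : Cs} {𝒵 : AddSubgroup (G 0 → Cob Laz s)}
    (H : WxJ R θ E ix Tm s3 s4) (h : E.chT s T m l k = true) : HG R θ T [(3, k)] 𝒵 := by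
  induction l generalizing k with
  | nil => exact H.hgEm (grd_spec h).2
  | cons x l ih =>
    change E.ct1 s T m x l (E.chT s T m l) k = true at h
    rw [JD.ct1, force_eq, JD.ct2] at h
    obtain ⟨h1, h2⟩ := grd_spec (grd_spec h).2
    exact H.hgStep _ _ _ (H.geF h1) .nil (ih h2)

variable [hp : Fact (Nat.Prime 3)] {t x x₂ : Cob Laz 1} {c c₂ : Cob Laz 2} (ht : IsT1 3 t)

include ht

omit hp in
/-- A class which vanishes on the bottom cell of `C α` is a multiple of `t`. -/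
theorem ex_t {s : ℕ} {v w : ℤ} {G : Fin 1 → Cob Laz (s + 1)} (h : ![G 0, 0] ∈ BT t w (s + 1))
    (e : 1 + v = w) (e' : 1 + s = s + 1) : ∃ y ∈ ZS v s, lc _ e' t y - G ∈ BS w (s + 1) := by
  obtain ⟨a, h2, b, hb, h3⟩ := mem_BQ_succ.1 h
  have h4 := congrFun h3 0
  have h8 := congrFun h3 1
  rw [Pi.add_apply, DD_apply, Fin.sum_univ_two] at h4 h8
  have h1 : (fun _ => a 1) ∈ ZS v s := mem_ZC.2 ⟨Cx.CY.cw_top h2 1 (by simp; omega), fun _ => -b 1,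
    neg_mem (Cx.CY.cw_top hb 1 (by simp; omega)), funext fun i => by
      rw [DD_zero]
      simpa [θA, Cob.cup, neg_eq_iff_add_eq_zero, add_comm] using h8⟩
  have h5 := lc_comm (d := fun _ : Fin 1 => 0) rfl e' rfl (zs_t ht) h1
  have h6 : ((-1 : ℤ) ^ (1 * s) • lc (Fin 1) rfl (a 1) fun _ => t) - G ∈ BS w (s + 1) := by
    have h7 := (zsmul_mem (lcZ mc_zero rfl h1 (w' := w) (by omega) (zs_t ht)) ((-1) ^ (1 * s))).1
    refine mem_BQ_succ.2 ⟨fun _ => -a 0, fun _ => (h2 0).neg, (fun _ => -b 0) +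
      (-1 : ℤ) ^ (1 * s) • lc (Fin 1) rfl (a 1) fun _ => t,
      AddSubgroup.add_mem _ (fun _ => (hb 0).neg) h7, funext fun i => ?_⟩
    rw [Pi.add_apply, DD_zero, map_neg, Pi.sub_apply, Subsingleton.elim i 0,
      show G 0 = _ from h4.symm]
    simp [θA, Cob.cup, lc_apply, P236EL.cupE_rfl, pow_succ, map_ofNat]
    ring
  rw [e] at h5
  exact ⟨_, h1, by simpa using add_mem h5 h6⟩

variable (h : HK)

include h

theorem kap_n (hx : Grk 1 1 x c) (h₂ : Grk 0 2 x₂ c₂) : ∃ n : Fin 1 → Cob Laz 3,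
    RL jS 0 iS 3 63 [(0, 0)] [(0, 1)] n n249 ∧ lc _ (show 1 + 7 = 8 from rfl) x (lb t 5 rfl (lb t 3 rfl n)) ∈ BS 78 8 ∧
      ![lc _ (show 2 + 3 = 5 from rfl) c₂ n 0, 0] ∈ BT t 70 5 := by
  have W := w3 h ht
  have H := W.S
  have L := lf_nm (R := jS) (θ := 0) (E := eJ) (ix := iS) (H.cx.ok 3) 63 [(0, 0)] [(3, 3)]
  have h0 := H.chT (n := []) h249
  obtain ⟨n, h1⟩ := H.exC (H.exN (c2 := [(0, 1)]) _ [(0, 1)] _ (H.clF_eq ▸ (grd_spec a249).1) rfl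
    rfl rfl (htCh H g249 rfl (h0.mono rfl rfl rfl)))
  obtain ⟨m, h2⟩ := H.exC (H.exN (c2 := [(0, 13)]) _ _ _ (H.clF_eq ▸ (grd_spec a249).2) rfl
    rfl rfl h0)
  obtain ⟨h3, h4⟩ := grd_spec b249
  obtain ⟨v, hv', h5⟩ := H.extL _ _ (h2.mono rfl rfl) (H.cyF_eq ▸ (grd_spec h4).1)
    (H.geF (grd_spec h4).2)
  obtain ⟨_, hu, h6⟩ := rep0 H h3 h1.zc
  obtain ⟨_, ⟨a, rfl⟩, k, hk, rfl⟩ := mem_sup.1 hu
  have h7 := h6.sub (h5.zsmul a)
  rw [smul_add, add_sub_add_left_eq_sub] at h7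
  have h8 := sub_mem hk (zsmul_mem hv' a)
  obtain ⟨y, hy, h9⟩ := h2.ex
  have h10 := H.wd.cong ((rcJ_any (inv_mI _) (sub_mem h2.zc (H.wd.bz hy)) h9.fl).mono
    (Le.mI (c' := [(0, 0)]) rfl) (Le.mI (c' := [(0, 1)]) rfl)) (x' := m) (by rwa [sub_sub_cancel])
  have h11 := RcJ.sub h1 (h10.zsmul a)
  rw [smul_zero, sub_zero] at h11
  refine ⟨n - a • m, h11, ?_,
    ((L.b0 H h₂ _).iA W).memB W.A (chV W.A h275) c275 h7 h8⟩
  exact (((L.bm H ht rfl).bm H ht rfl).gm H hx _).memB H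
    (H.hgStep _ _ _ (H.geF s304) .nil (chV H h304)) c304 h7 h8

theorem kap_g (hx : Grk 1 1 x c) {y : Fin 1 → Cob Laz 4} (hy : y ∈ ZS 69 4) : ∃ g ∈ ZS 83 9,
    lc _ (show 1 + 8 = 9 from rfl) x (lb t 6 rfl (lb t 4 rfl y)) - lc _ (zero_add 9) v1 g ∈
      BS 84 9 := by
  have H := wxS h
  obtain ⟨u, hu, h1⟩ := rep0 H (grd_spec a272).2 hy
  obtain ⟨_, rfl, h2⟩ := ((((lf_nm (H.cx.ok 4) 69 _ _).bm H ht rfl).bm H ht rfl).gm H hx
    (show 1 + 8 = 9 from rfl)).rcM H (𝒵 := ⊥) .nil c327 h1 hu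
  obtain ⟨g, hg, -, h3⟩ := H.div ht (w := 83) (r := true) rfl h2 (by decide +kernel)
  rw [sub_zero, pow_one] at h3
  exact ⟨g, hg, h3⟩

theorem kap_y (h₂ : Grk 0 2 x₂ c₂) {y : Fin 1 → Cob Laz 4} {n : Fin 1 → Cob Laz 3}
    (hy : y ∈ ZS 69 4) (hn : RL jS 0 iS 3 63 [(0, 0)] [(0, 1)] n n249)
    (h0 : lc _ (show 1 + 4 = 5 from rfl) t y - lc _ (show 2 + 3 = 5 from rfl) c₂ n ∈ BS 70 5) :
    RL jS 0 iS 4 69 [(0, 0)] [(0, 1)] y y272 := by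
  have H := wxS h
  have h1 : ∀ m, RL jS 0 iS 4 69 [(0, 0)] [(0, 1)] y m →
      (o275 m).no eJ 5 70 [(0, 0)] [(0, 1)] [] = true → False := fun m h1 h2 =>
    (((cv_nm (H.cx.ok 4) h1).t1 H ht _).sub' H ((cv_nm (H.cx.ok 3) hn).b0 H h₂ _)).neJ H h2 h0
  obtain ⟨u, hu, h2⟩ := rep0 H (grd_spec a272).1 hy
  obtain ⟨_, rfl, rfl | rfl | rfl⟩ := spn_cons hu
  · exact (h1 [] h2 (grd_spec n275).1).elim
  · rwa [add_zero] at h2
  · rw [add_zero] at h2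
    exact (h1 _ h2 (grd_spec n275).2).elim

/-- **The facts for the differential of level 0.** -/
theorem kap (hx : Grk 1 1 x c) (h₂ : Grk 0 2 x₂ c₂) : Kap t HH x c₂ := by
  obtain ⟨n, h1, h2, h3⟩ := kap_n ht h hx h₂
  obtain ⟨y, hy, h4⟩ := ex_t ht (v := 69) h3 rfl rfl
  obtain ⟨g, hg, h5⟩ := kap_g ht h hx hy
  exact ⟨y, hy, n, h1.zc, g, hg, h5, h4, h2,
    P236TD.kap_univ h ht hx h₂ (kap_y ht h h₂ hy h1 h4) h1⟩

end Vale.Agent.P236LB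

end
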