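import Vale.Agent.P236JG.Dat
import Vale.Agent.P236JT.Fa
import Vale.Agent.P236JY.Ch

/-!
# P236LB / KapC : checks for the stems 249 and 272 of the Moore spectrum
-/

namespace Vale.Agent.P236LB

open Vale.Agent.P236EL Vale.Agent.P236KE Vale.Agent.P236K3 Vale.Agent.P236F Vale.Agent.P236JX
  Vale.Agent.P236JT Vale.Agent.P236JG

/-- the leading term of a class of stem 249 -/
def n249 : List Tr := [⟨20, 0, 0, 0, 0, 1⟩]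

/-- a class of stem 249 of level 12 -/
def m249 : List Tr := [⟨4, 2, 9, 1, 0, 1⟩, ⟨5, 0, 12, 0, 0, 2⟩, ⟨6, 1, 11, 0, 0, 1⟩,
  ⟨7, 2, 10, 0, 0, 2⟩, ⟨11, 5, 7, 0, 0, 1⟩, ⟨8, 4, 9, 0, 0, 1⟩, ⟨3, 1, 13, 0, 0, 2⟩,
  ⟨3, 4, 9, 1, 0, 2⟩, ⟨10, 7, 7, 0, 0, 2⟩]

/-- the other cochains of stem 249 -/
def k249 : List (List Tr) := [[⟨20, 0, 0, 0, 0, 1⟩, ⟨5, 0, 12, 0, 0, 1⟩],
  [⟨9, 0, 0, 3, 0, 1⟩, ⟨5, 0, 12, 0, 0, 2⟩], [⟨4, 0, 3, 3, 0, 1⟩, ⟨5, 0, 12, 0, 0, 2⟩],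
  [⟨0, 2, 11, 1, 0, 1⟩], [⟨1, 1, 14, 0, 0, 1⟩]]

/-- the leading term of a class of stem 272 -/
def y272 : List Tr := [⟨27, 0, 0, 0, 0, 1⟩]

/-- the cochains of stem 272 modulo `v_1` -/
def l272 : List (List Tr) := [[⟨27, 0, 0, 0, 0, 1⟩], [⟨11, 0, 0, 3, 0, 1⟩, ⟨16, 0, 5, 1, 0, 1⟩],
  [⟨10, 0, 0, 3, 0, 1⟩, ⟨16, 0, 5, 1, 0, 1⟩], [⟨4, 0, 4, 3, 0, 1⟩, ⟨9, 0, 8, 1, 0, 1⟩],
  [⟨5, 0, 10, 1, 0, 1⟩], [⟨3, 0, 11, 1, 0, 1⟩]]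

/-- the family of all classes of stem 249 -/
noncomputable def o249 (m : List Tr) : WJ := WJ.nm eJ 3 63 [(0, 0)] [(3, 3)] m

/-- the relation in stem 275 at level 0 -/
noncomputable def o275 (m : List Tr) : WJ :=
  ((WJ.nm eJ 4 69 [(0, 0)] [(0, 1)] m).ctm eJ 90 4 1).sub (eJ.D.L 5)
    ((WJ.nm eJ 3 63 [(0, 0)] [(0, 1)] n249).cb0 eJ 90 3 0)

theorem a249 : grd (eJ.clF 3 63 [(0, 0)] [(3, 3)] [(0, 1)] n249)
    (eJ.clF 3 63 [(0, 12)] [(3, 15)] [(0, 13)] m249) = true := by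
  decide +kernel

theorem h249 : eJ.chT 4 63 13 [(18, 15), (21, 18), (23, 20), (26, 23), (29, 26), (32, 29),
    (34, 31), (37, 34), (40, 37), (43, 40), (46, 43), (48, 45), (50, 47), (53, 50), (55, 52),
    (58, 55)] 15 = true := by
  decide +kernel

theorem g249 : chF eJ 4 63 [(3, 15)] [([(3, 3)], [(6, 6)], [(0, 3)]),
    ([(3, 6)], [(6, 9)], [(0, 6)]), ([(3, 9)], [(6, 12)], [(0, 9)]),
    ([(3, 12)], [(6, 15)], [(0, 12)])] = true := by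
  decide +kernel

theorem b249 : grd (eJ.geF 3 63 [(0, 0)] [(3, 3)] [(0, 0)] [(3, 3)] (m249 :: k249))
    (grd (eJ.cyF 3 63 [(0, 0)] [(3, 3)] m249)
      (eJ.geF 3 63 [(0, 13), (3, 3)] [(3, 3)] [(0, 0)] [(3, 3)] k249)) = true := by
  decide +kernel

theorem c304 : WJ.lfM eJ 8 78 [(0, 0)] [(0, 16), (3, 3)]
    (fun m => (((o249 m).cbm eJ 90 3).cbm eJ 90 5).cgm eJ 90 7 (3 ^ 1) 0) k249 [] = true := by
  decide +kernel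

theorem s304 : eJ.geF 8 78 [(0, 16), (3, 3)] [(3, 19), (6, 6)] [(0, 0)] [(3, 3)] [] = true := by
  decide +kernel

theorem a272 : grd (eJ.geF 4 69 [(0, 0)] [(0, 1)] [(0, 0)] [(0, 1)] [y272])
    (eJ.geF 4 69 [(0, 0)] [(1, 1)] [(0, 0)] [(1, 1)] l272) = true := by
  decide +kernel

theorem n275 : grd ((o275 []).no eJ 5 70 [(0, 0)] [(0, 1)] [])
    ((o275 (twL y272)).no eJ 5 70 [(0, 0)] [(0, 1)] []) = true := by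
  decide +kernel

theorem c327 : WJ.lfM eJ 9 84 [(0, 0)] [(1, 1)] (fun m => (((WJ.nm eJ 4 69 [(0, 0)] [(1, 1)] m).cbm
    eJ 90 4).cbm eJ 90 6).cgm eJ 90 8 (3 ^ 1) 0) l272 [] = true := by
  decide +kernel

end Vale.Agent.P236LB
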